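import Vale.Agent.Lib.P307.Move

namespace Vale.Agent.Lib.P307

open Cardinal Set

universe u

variable {τ : Type u} {X : Type u}

/-- Big sets contain strong submodels around each subset, of no larger size. -/
theorem exists_strong (K : UAEC τ) {l : Cardinal.{u}} (hLS : K.HasLS l) {c : X → Set τ} {N₂ : Set X}
    (hX : K.Mem X c) (hB : Big l c N₂) (χ : Cardinal.{u}) :
    l ≤ χ → ∀ B : Set X, B ⊆ N₂ → #B ≤ χ → ∃ N', B ⊆ N' ∧ N' ⊆ N₂ ∧ K.Le X c N' ∧ #N' ≤ χ := by
  classical
  induction χ using WellFoundedLT.induction with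
  | ind χ IH =>
    intro hlχ B hBN hBχ
    rcases eq_or_lt_of_le hlχ with rfl | hlt
    · exact exists_small K hLS hX hB hBN hBχ
    have hl : ℵ₀ ≤ l := hLS.1
    have hχ : ℵ₀ ≤ χ := hl.trans hlχ
    let I : Type u := χ.ord.ToType
    have hIc : #I = χ := mk_ord_toType χ
    have hIio : ∀ i : I, #(Iio i) < χ := fun i => by
      simpa [hIc] using mk_Iio_lt i (by simp [I])
    have hIic : ∀ i : I, #(Iic i) < χ := by
      intro i
      have h1 : Iic i ⊆ insert i (Iio i) := by
        intro x hx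
        rcases eq_or_lt_of_le (show x ≤ i from hx) with h | h
        · exact Or.inl h
        · exact Or.inr h
      have h2 : #(insert i (Iio i) : Set I) ≤ #(Iio i) + 1 := mk_insert_le
      exact lt_of_le_of_lt ((mk_le_mk_of_subset h1).trans h2)
        (add_lt_of_lt hχ (hIio i) (one_lt_aleph0.trans_le hχ))
    have hι : #↥B ≤ #I := by rw [hIc]; exact hBχ
    obtain ⟨ι⟩ := Cardinal.le_def _ _ |>.1 hι
    -- the selection function given by the induction hypothesis
    have IH' : ∀ A : Set X, A ⊆ N₂ → max #A l < χ →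
        ∃ N', A ⊆ N' ∧ N' ⊆ N₂ ∧ K.Le X c N' ∧ #N' ≤ max #A l := fun A hA h =>
      IH _ h (le_max_right _ _) A hA (le_max_left _ _)
    let sel : Set X → Set X := fun A =>
      if h : A ⊆ N₂ ∧ max #A l < χ then (IH' A h.1 h.2).choose else A
    have hsel : ∀ A, A ⊆ N₂ → max #A l < χ →
        A ⊆ sel A ∧ sel A ⊆ N₂ ∧ K.Le X c (sel A) ∧ #(sel A) ≤ max #A l := by
      intro A h1 h2
      have h3 : A ⊆ N₂ ∧ max #A l < χ := ⟨h1, h2⟩
      simp only [sel, dif_pos h3]
      exact (IH' A h1 h2).choose_spec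
    let Bi : I → Set X := fun i => Subtype.val '' {x : ↥B | ι x ≤ i}
    let N : I → Set X := WellFounded.fix (wellFounded_lt (α := I))
      (fun i rec => sel ((⋃ j : Iio i, rec j.1 j.2) ∪ Bi i))
    let A : I → Set X := fun i => (⋃ j : Iio i, N j.1) ∪ Bi i
    have hN : ∀ i, N i = sel (A i) := fun i => WellFounded.fix_eq _ _ i
    let d : I → Cardinal.{u} := fun i => max #(Iic i) l
    have hdlt : ∀ i, d i < χ := fun i => max_lt (hIic i) hlt
    have hdinf : ∀ i, ℵ₀ ≤ d i := fun i => hl.trans (le_max_right _ _)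
    have hdmono : ∀ {i j : I}, i ≤ j → d i ≤ d j := fun {i j} hij =>
      max_le_max (mk_le_mk_of_subset (Iic_subset_Iic.2 hij)) le_rfl
    have main : ∀ i, A i ⊆ N₂ ∧ #(A i) ≤ d i ∧ N i ⊆ N₂ ∧ K.Le X c (N i) ∧ #(N i) ≤ d i := by
      intro i
      induction i using WellFoundedLT.induction with
      | ind i ih =>
        have hAsub : A i ⊆ N₂ := by
          rintro x (hx | hx)
          · obtain ⟨j, hj⟩ := mem_iUnion.1 hx
            exact (ih j.1 j.2).2.2.1 hj
          · obtain ⟨y, _, rfl⟩ := hx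
            exact hBN y.2
        have hU : #(⋃ j : Iio i, N j.1) ≤ d i := by
          refine (mk_iUnion_le _).trans ?_
          have h1 : #↥(Iio i) ≤ d i :=
            (mk_le_mk_of_subset Iio_subset_Iic_self).trans (le_max_left _ _)
          have h2 : (⨆ j : Iio i, #(N j.1)) ≤ d i := by
            refine ciSup_le' fun j => ?_
            exact (ih j.1 j.2).2.2.2.2.trans (hdmono (le_of_lt j.2))
          calc _ ≤ d i * d i := mul_le_mul' h1 h2
            _ = d i := mul_eq_self (hdinf i)
        have hBi : #(Bi i) ≤ d i := by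
          refine mk_image_le.trans ?_
          have h1 : #↥{x : ↥B | ι x ≤ i} ≤ #(Iic i) := by
            refine Cardinal.mk_le_of_injective (f := fun x => ⟨ι x.1, x.2⟩) ?_
            intro x y hxy
            have : ι x.1 = ι y.1 := congrArg Subtype.val hxy
            exact Subtype.ext (ι.injective this)
          exact h1.trans (le_max_left _ _)
        have hAcard : #(A i) ≤ d i :=
          (mk_union_le _ _).trans (add_le_of_le (hdinf i) hU hBi)
        have hmax : max #(A i) l ≤ d i := max_le hAcard (le_max_right _ _)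
        obtain ⟨_, h2, h3, h4⟩ := hsel (A i) hAsub (hmax.trans_lt (hdlt i))
        rw [hN i]
        exact ⟨hAsub, hAcard, h2, h3, h4.trans hmax⟩
    have hAN : ∀ i, A i ⊆ N i := by
      intro i
      rw [hN i]
      exact (hsel (A i) (main i).1 ((max_le (main i).2.1 (le_max_right _ _)).trans_lt (hdlt i))).1
    have hmono : ∀ i j, i ≤ j → N i ⊆ N j := by
      intro i j hij
      rcases eq_or_lt_of_le hij with rfl | h
      · exact Subset.rfl
      · intro x hx
        exact hAN j (Or.inl (mem_iUnion.2 ⟨⟨i, h⟩, hx⟩))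
    have hne : Nonempty I := by
      rw [← mk_ne_zero_iff, hIc]
      exact (aleph0_pos.trans_le hχ).ne'
    refine ⟨⋃ i, N i, ?_, iUnion_subset fun i => (main i).2.2.1, ?_, ?_⟩
    · intro x hx
      refine mem_iUnion.2 ⟨ι ⟨x, hx⟩, hAN _ (Or.inr ⟨⟨x, hx⟩, ?_, rfl⟩)⟩
      exact le_refl (ι ⟨x, hx⟩)
    · exact K.chain_le hmono
        (fun i j hij => K.coherence (hmono i j hij) (main i).2.2.2.1 (main j).2.2.2.1)
        (fun i => (main i).2.2.2.1)
    · refine (mk_iUnion_le _).trans ?_
      have h2 : (⨆ i, #(N i)) ≤ χ := ciSup_le' fun i =>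
        ((main i).2.2.2.2.trans_lt (hdlt i)).le
      calc _ ≤ χ * χ := mul_le_mul' hIc.le h2
        _ = χ := mul_eq_self hχ

/-- **Big subsets are strong submodels.** -/
theorem le_of_big (K : UAEC τ) {l : Cardinal.{u}} (hLS : K.HasLS l) {c : X → Set τ} {N₂ : Set X}
    (hX : K.Mem X c) (hB : Big l c N₂) : K.Le X c N₂ := by
  obtain ⟨N', h1, h2, h3, _⟩ := exists_strong K hLS hX hB (max #N₂ l) (le_max_right _ _) N₂
    Subset.rfl (le_max_left _ _)
  have : N' = N₂ := Subset.antisymm h2 h1
  rwa [this] at h3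

end Vale.Agent.Lib.P307
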