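import Mathlib

namespace Vale.Agent.Lib.P307

open Cardinal Set

universe u

/-- An abstract elementary class in the purely unary vocabulary `τ`.
A `τ`-structure on a type `M` is a map `c : M → Set τ`, where `c a` is the set of predicate symbols
holding at `a`. A substructure is a subset with the induced map.
`Mem M c` says that the structure belongs to the class, and `Le M c A` says that the subset `A` with
the induced structure is a strong substructure of `(M, c)` (written `A ≤_K M`).
Chains are written inside their union, or inside the structure containing all of them. -/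
structure UAEC (τ : Type u) where
  Mem : ∀ M : Type u, (M → Set τ) → Prop
  Le : ∀ M : Type u, (M → Set τ) → Set M → Prop
  mem_iso : ∀ {M N : Type u} {c : M → Set τ} {d : N → Set τ} (e : M ≃ N),
    (∀ a, d (e a) = c a) → Mem M c → Mem N d
  le_iso : ∀ {M N : Type u} {c : M → Set τ} {d : N → Set τ} (e : M ≃ N),
    (∀ a, d (e a) = c a) → ∀ A : Set M, Le M c A → Le N d (e '' A)
  le_mem : ∀ {M : Type u} {c : M → Set τ} {A : Set M},
    Le M c A → Mem M c ∧ Mem A (fun a => c a)
  le_refl : ∀ {M : Type u} {c : M → Set τ}, Mem M c → Le M c Set.univ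
  le_trans : ∀ {M : Type u} {c : M → Set τ} {A : Set M} {B : Set A},
    Le M c A → Le A (fun a => c a) B → Le M c (Subtype.val '' B)
  coherence : ∀ {M : Type u} {c : M → Set τ} {A B : Set M}, A ⊆ B → Le M c A → Le M c B →
    Le B (fun a => c a) (Subtype.val ⁻¹' A)
  chain_union : ∀ {I : Type u} [LinearOrder I] [WellFoundedLT I] [Nonempty I]
    {U : Type u} {c : U → Set τ} {S : I → Set U},
    (∀ i j, i ≤ j → S i ⊆ S j) → (⋃ i, S i) = Set.univ →
    (∀ i j, i ≤ j → Le (S j) (fun a => c a) (Subtype.val ⁻¹' S i)) →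
    Mem U c ∧ ∀ i, Le U c (S i)
  chain_le : ∀ {I : Type u} [LinearOrder I] [WellFoundedLT I] [Nonempty I]
    {N : Type u} {c : N → Set τ} {S : I → Set N},
    (∀ i j, i ≤ j → S i ⊆ S j) →
    (∀ i j, i ≤ j → Le (S j) (fun a => c a) (Subtype.val ⁻¹' S i)) →
    (∀ i, Le N c (S i)) → Le N c (⋃ i, S i)

variable {τ : Type u}

/-- The Lowenheim-Skolem property with number `l`, where `l` is infinite and at least the size of
the vocabulary; so `K.HasLS l` for some `l ≤ L` is the same as `LS(K) ≤ L`. -/
def UAEC.HasLS (K : UAEC τ) (l : Cardinal.{u}) : Prop :=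
  ℵ₀ ≤ l ∧ #τ ≤ l ∧ ∀ {M : Type u} {c : M → Set τ}, K.Mem M c → ∀ A : Set M,
    ∃ B : Set M, A ⊆ B ∧ K.Le M c B ∧ #B ≤ #A + l

/-- `K` is categorical in `κ`: it has a model of size `κ`, and any two such models are isomorphic. -/
def UAEC.Categorical (K : UAEC τ) (κ : Cardinal.{u}) : Prop :=
  (∃ (M : Type u) (c : M → Set τ), K.Mem M c ∧ #M = κ) ∧
    ∀ (M N : Type u) (c : M → Set τ) (d : N → Set τ), K.Mem M c → K.Mem N d → #M = κ → #N = κ →
      ∃ e : M ≃ N, ∀ a, d (e a) = c a

end Vale.Agent.Lib.P307
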