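import Vale.Agent.Lib.P307.Closure

namespace Vale.Agent.Lib.P307

open Cardinal Set

universe u

variable {τ : Type u}

/-- The colouring of a sum: the right part gets the single colour `p`. -/
def sumColour {V D : Type u} (cV : V → Set τ) (p : Set τ) : V ⊕ D → Set τ :=
  Sum.elim cV (fun _ => p)

theorem mem_sum_congr (K : UAEC τ) {V D D' : Type u} {cV : V → Set τ} {p : Set τ} (h : #D = #D')
    (hm : K.Mem (V ⊕ D) (sumColour cV p)) : K.Mem (V ⊕ D') (sumColour cV p) := by
  obtain ⟨e⟩ := Cardinal.eq.1 h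
  refine K.mem_iso (Equiv.sumCongr (Equiv.refl V) e) ?_ hm
  rintro (a | a) <;> rfl

/-- The subset of the sum consisting of the left part and of `T` in the right part. -/
def sumSub {V D : Type u} (T : Set D) : Set (V ⊕ D) := range Sum.inl ∪ Sum.inr '' T

theorem mem_sumSub (K : UAEC τ) {V D : Type u} {cV : V → Set τ} {p : Set τ} {T : Set D}
    (h : K.Mem (V ⊕ ↥T) (sumColour cV p)) :
    K.Mem ↥(sumSub (V := V) T) (fun a => sumColour cV p a.1) := by
  let f : V ⊕ ↥T → ↥(sumSub (V := V) T) := fun x => match x with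
    | Sum.inl v => ⟨Sum.inl v, Or.inl ⟨v, rfl⟩⟩
    | Sum.inr y => ⟨Sum.inr y.1, Or.inr ⟨y.1, y.2, rfl⟩⟩
  have hf : Function.Bijective f := by
    constructor
    · rintro (a | a) (b | b) hab
      · have : (Sum.inl a : V ⊕ D) = Sum.inl b := congrArg Subtype.val hab
        rw [Sum.inl.inj this]
      · have : (Sum.inl a : V ⊕ D) = Sum.inr b.1 := congrArg Subtype.val hab
        cases this
      · have : (Sum.inr a.1 : V ⊕ D) = Sum.inl b := congrArg Subtype.val hab
        cases this
      · have : (Sum.inr a.1 : V ⊕ D) = Sum.inr b.1 := congrArg Subtype.val hab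
        rw [Subtype.ext (Sum.inr.inj this)]
    · rintro ⟨_, ⟨v, rfl⟩ | ⟨y, hy, rfl⟩⟩
      · exact ⟨Sum.inl v, rfl⟩
      · exact ⟨Sum.inr ⟨y, hy⟩, rfl⟩
  refine K.mem_iso (Equiv.ofBijective f hf) ?_ h
  rintro (a | a) <;> rfl

/-- Growing one colour to any size above the successor of `l`. -/
theorem grow (K : UAEC τ) {l : Cardinal.{u}} (hLS : K.HasLS l) {V : Type u} {cV : V → Set τ}
    {p : Set τ} {D₀ : Type u} (h₀ : K.Mem (V ⊕ D₀) (sumColour cV p)) (hD₀ : #D₀ = Order.succ l)
    (χ : Cardinal.{u}) : Order.succ l ≤ χ → ∀ D : Type u, #D = χ →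
      K.Mem (V ⊕ D) (sumColour cV p) := by
  classical
  induction χ using WellFoundedLT.induction with
  | ind χ IH =>
    intro hχs D hD
    rcases eq_or_lt_of_le hχs with h | hlt
    · exact mem_sum_congr K (by rw [hD₀, hD, h]) h₀
    have hl : ℵ₀ ≤ l := hLS.1
    have hχ : ℵ₀ ≤ χ := hl.trans ((Order.le_succ l).trans hχs)
    let I : Type u := χ.ord.ToType
    have hIc : #I = χ := mk_ord_toType χ
    suffices hI : K.Mem (V ⊕ I) (sumColour cV p) from mem_sum_congr K (by rw [hIc, hD]) hI
    have hIio : ∀ i : I, #(Iio i) < χ := fun i => by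
      simpa [hIc] using mk_Iio_lt i (by simp [I])
    have hIic : ∀ i : I, #(Iic i) < χ := by
      intro i
      have h1 : Iic i ⊆ insert i (Iio i) := by
        intro x hx
        rcases eq_or_lt_of_le (show x ≤ i from hx) with h | h
        · exact Or.inl h
        · exact Or.inr h
      have h2 : #(insert i (Iio i) : Set I) ≤ #(Iio i) + 1 := mk_insert_le
      exact lt_of_le_of_lt ((mk_le_mk_of_subset h1).trans h2)
        (add_lt_of_lt hχ (hIio i) (one_lt_aleph0.trans_le hχ))
    obtain ⟨T₀, hT₀⟩ := (le_mk_iff_exists_subset (c := Order.succ l) (s := (Set.univ : Set I))).1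
      (by rw [mk_univ, hIc]; exact hχs)
    have hT₀c : #T₀ = Order.succ l := hT₀.2
    let T : I → Set I := fun i => Iic i ∪ T₀
    have hTc : ∀ i, #(T i) < χ := fun i =>
      lt_of_le_of_lt (mk_union_le _ _) (add_lt_of_lt hχ (hIic i) (by rw [hT₀c]; exact hlt))
    have hTs : ∀ i, Order.succ l ≤ #(T i) := fun i => by
      rw [← hT₀c]
      exact mk_le_mk_of_subset subset_union_right
    have hmemS : ∀ i, K.Mem ↥(sumSub (V := V) (T i))
        (fun a => sumColour (D := I) cV p a.1) := fun i =>
      mem_sumSub K (IH _ (hTc i) (hTs i) _ rfl)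
    have hne : Nonempty I := by
      rw [← mk_ne_zero_iff, hIc]
      exact (aleph0_pos.trans_le hχ).ne'
    have hTmono : ∀ i j, i ≤ j → T i ⊆ T j := fun i j hij =>
      union_subset_union_left _ (Iic_subset_Iic.2 hij)
    have hSmono : ∀ i j, i ≤ j → sumSub (V := V) (T i) ⊆ sumSub (V := V) (T j) := by
      rintro i j hij x (h | ⟨y, hy, rfl⟩)
      · exact Or.inl h
      · exact Or.inr ⟨y, hTmono i j hij hy, rfl⟩
    have hcover : (⋃ i, sumSub (V := V) (T i)) = Set.univ := by
      refine eq_univ_of_forall ?_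
      rintro (v | y)
      · exact mem_iUnion.2 ⟨hne.some, Or.inl ⟨v, rfl⟩⟩
      · exact mem_iUnion.2 ⟨y, Or.inr ⟨y, Or.inl (le_refl y), rfl⟩⟩
    have hchain : ∀ i j, i ≤ j → K.Le ↥(sumSub (V := V) (T j))
        (fun a => sumColour (D := I) cV p a.1)
        (Subtype.val ⁻¹' sumSub (V := V) (T i)) := by
      intro i j hij
      refine le_of_big K hLS (hmemS j) ?_
      intro q
      by_cases hq : q = p
      · right
        subst hq
        have hinj : Function.Injective (fun y : ↥(T i) =>
            (⟨⟨Sum.inr y.1, Or.inr ⟨y.1, hTmono i j hij y.2, rfl⟩⟩, Or.inr ⟨y.1, y.2, rfl⟩, rfl⟩ :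
              ↥{a : ↥(sumSub (V := V) (T j)) |
                a ∈ Subtype.val ⁻¹' sumSub (V := V) (T i) ∧
                  sumColour (D := I) cV q a.1 = q})) := by
          intro y y' hyy
          have h1 := congrArg (fun z => z.1.1) hyy
          exact Subtype.ext (Sum.inr.inj h1)
        exact (Order.lt_succ_iff.2 le_rfl).trans_le ((hTs i).trans (mk_le_of_injective hinj))
      · left
        rintro ⟨a, ha⟩ hc
        rcases a with v | y
        · exact Or.inl ⟨v, rfl⟩
        · exact absurd hc.symm hq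
    exact (K.chain_union (S := fun i => sumSub (V := V) (T i)) hSmono hcover hchain).1

end Vale.Agent.Lib.P307
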