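import Vale.Agent.Lib.P307.Grow

namespace Vale.Agent.Lib.P307

open Cardinal Set

universe u

variable {τ : Type u}

/-- The number of elements of a given colour. -/
noncomputable def cnt {X : Type u} (c : X → Set τ) (q : Set τ) : Cardinal.{u} := #{a // c a = q}

theorem iso_of_cnt {M N : Type u} {c : M → Set τ} {d : N → Set τ} (h : ∀ q, cnt c q = cnt d q) :
    ∃ e : M ≃ N, ∀ a, d (e a) = c a := by
  have h1 : ∀ q, Nonempty ({a // c a = q} ≃ {b // d b = q}) := fun q => Cardinal.eq.1 (h q)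
  let e : ∀ q, {a // c a = q} ≃ {b // d b = q} := fun q => (h1 q).some
  let E : M ≃ N := (Equiv.sigmaFiberEquiv c).symm.trans
    ((Equiv.sigmaCongrRight e).trans (Equiv.sigmaFiberEquiv d))
  refine ⟨E, fun a => ?_⟩
  exact (e (c a) ⟨a, rfl⟩).2

theorem cnt_eq_of_iso {M N : Type u} {c : M → Set τ} {d : N → Set τ} (e : M ≃ N)
    (h : ∀ a, d (e a) = c a) (q : Set τ) : cnt c q = cnt d q := by
  refine Cardinal.mk_congr ?_
  exact e.subtypeEquiv fun a => by rw [h a]

theorem cnt_le_card {X : Type u} (c : X → Set τ) (q : Set τ) : cnt c q ≤ #X :=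
  mk_le_of_injective (f := Subtype.val) Subtype.val_injective

theorem card_le_of_cnt_le {X : Type u} {c : X → Set τ} {θ : Cardinal.{u}} (h : ∀ q, cnt c q ≤ θ) :
    #X ≤ 2 ^ #τ * θ := by
  have h1 : #X = sum (fun q => cnt c q) := by
    rw [← Cardinal.mk_congr (Equiv.sigmaFiberEquiv c), mk_sigma]
    rfl
  rw [h1]
  refine (sum_le_sum _ (fun _ => θ) h).trans ?_
  rw [sum_const']
  rw [mk_set]

theorem card_le_add {X : Type u} {c : X → Set τ} {θ : Cardinal.{u}} {p : Set τ}
    (h : ∀ q, q ≠ p → cnt c q ≤ θ) : #X ≤ cnt c p + 2 ^ #τ * θ := by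
  classical
  have h1 : #X = cnt c p + #{a // ¬ c a = p} := by
    rw [← Cardinal.mk_congr (Equiv.sumCompl (fun a => c a = p)), mk_sum]
    simp [cnt]
  rw [h1]
  gcongr
  refine card_le_of_cnt_le (c := fun a : {a // ¬ c a = p} => c a.1) fun q => ?_
  by_cases hq : q = p
  · subst hq
    have : IsEmpty {a : {a // ¬ c a = q} // c a.1 = q} := ⟨fun a => a.1.2 a.2⟩
    simp [cnt]
  · refine le_trans ?_ (h q hq)
    exact mk_le_of_injective (f := fun a => ⟨a.1.1, a.2⟩) (by
      intro a b hab
      simp only [Subtype.mk.injEq] at hab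
      exact Subtype.ext (Subtype.ext hab))

/-- Normal form: from a model and a colour of size above `l` one gets a model with that colour of
any size at least `l⁺`, with all the other colours above `l` cut down to `l⁺`, the small colours
unchanged. -/
theorem normal_form (K : UAEC τ) {l : Cardinal.{u}} (hLS : K.HasLS l) {X : Type u} {c : X → Set τ}
    (hX : K.Mem X c) {p : Set τ} (hp : l < cnt c p) (χ : Cardinal.{u}) (hχ : Order.succ l ≤ χ) :
    ∃ (Y : Type u) (d : Y → Set τ), K.Mem Y d ∧ cnt d p = χ ∧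
      ∀ q, q ≠ p → (l < cnt c q → cnt d q = Order.succ l) ∧ (¬ l < cnt c q → cnt d q = cnt c q) := by
  classical
  -- subsets of size `l⁺` in the large colours
  have hT : ∀ q, l < cnt c q →
      ∃ T : Set X, (∀ a ∈ T, c a = q) ∧ #T = Order.succ l := by
    intro q hq
    obtain ⟨T', _, hT'⟩ := (le_mk_iff_exists_subset (c := Order.succ l)
      (s := {a | c a = q})).1 (Order.succ_le_of_lt hq)
    rename_i hsub
    exact ⟨T', fun a ha => hsub ha, hT'⟩
  choose! T hTc hTs using hT
  let N₀ : Set X := {a | l < cnt c (c a) → a ∈ T (c a)}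
  -- the colour classes of N₀
  have hN₀l : ∀ q, l < cnt c q → {a | a ∈ N₀ ∧ c a = q} = T q := by
    intro q hq
    ext a
    constructor
    · rintro ⟨ha, rfl⟩
      exact ha hq
    · intro ha
      have hca := hTc q hq a ha
      refine ⟨fun _ => ?_, hca⟩
      rw [hca]
      exact ha
  have hN₀s : ∀ q, ¬ l < cnt c q → ∀ a, c a = q → a ∈ N₀ := by
    rintro q hq a rfl h
    exact absurd h hq
  have hBig : Big l c N₀ := by
    intro q
    by_cases hq : l < cnt c q
    · right
      rw [hN₀l q hq, hTs q hq]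
      exact Order.lt_succ_iff.2 le_rfl
    · left
      exact hN₀s q hq
  have hLe := le_of_big K hLS hX hBig
  have hN₀ : K.Mem ↥N₀ (fun a => c a.1) := (K.le_mem hLe).2
  -- the two parts of N₀
  let V : Type u := {a : ↥N₀ // ¬ c a.1 = p}
  let D₀ : Type u := {a : ↥N₀ // c a.1 = p}
  let cV : V → Set τ := fun a => c a.1.1
  have hD₀ : #D₀ = Order.succ l := by
    rw [← hTs p hp, ← hN₀l p hp]
    refine Cardinal.mk_congr ?_
    exact
      { toFun := fun a => ⟨a.1.1, a.1.2, a.2⟩
        invFun := fun a => ⟨⟨a.1, a.2.1⟩, a.2.2⟩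
        left_inv := fun _ => rfl
        right_inv := fun _ => rfl }
  have h₀ : K.Mem (V ⊕ D₀) (sumColour cV p) := by
    refine K.mem_iso ((Equiv.sumCompl (fun a : ↥N₀ => c a.1 = p)).symm.trans (Equiv.sumComm _ _))
      ?_ hN₀
    intro a
    by_cases ha : c a.1 = p
    · simp [Equiv.sumCompl, sumColour, ha]
    · simp [Equiv.sumCompl, sumColour, ha, cV]
  let D : Type u := χ.out
  have hD : #D = χ := mk_out χ
  refine ⟨V ⊕ D, sumColour cV p, grow K hLS h₀ hD₀ χ hχ D hD, ?_, ?_⟩
  · -- the colour p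
    rw [← hD]
    refine Cardinal.mk_congr ?_
    exact
      { toFun := fun y => match y with
          | ⟨Sum.inl v, hv⟩ => absurd hv v.2
          | ⟨Sum.inr y, _⟩ => y
        invFun := fun y => ⟨Sum.inr y, rfl⟩
        left_inv := by
          rintro ⟨v | y, h⟩
          · exact absurd h v.2
          · rfl
        right_inv := fun _ => rfl }
  · intro q hqp
    have hcount : cnt (sumColour (D := D) cV p) q = #↥{a | a ∈ N₀ ∧ c a = q} := by
      refine Cardinal.mk_congr ?_
      exact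
        { toFun := fun y => match y with
            | ⟨Sum.inl v, hv⟩ => ⟨v.1.1, v.1.2, hv⟩
            | ⟨Sum.inr y, h⟩ => absurd h.symm hqp
          invFun := fun a => ⟨Sum.inl ⟨⟨a.1, a.2.1⟩, by rw [a.2.2]; exact hqp⟩, a.2.2⟩
          left_inv := by
            rintro ⟨v | y, h⟩
            · rfl
            · exact absurd h.symm hqp
          right_inv := fun _ => rfl }
    constructor
    · intro hq
      rw [hcount, hN₀l q hq, hTs q hq]
    · intro hq
      rw [hcount]
      refine Cardinal.mk_congr ?_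
      exact
        { toFun := fun a => ⟨a.1, a.2.2⟩
          invFun := fun a => ⟨a.1, hN₀s q hq a.1 a.2, a.2⟩
          left_inv := fun _ => rfl
          right_inv := fun _ => rfl }

/-- **Eventual categoricity for purely unary abstract elementary classes** with threshold
`(2 ^ l)⁺`. -/
theorem main_transfer (K : UAEC τ) {l : Cardinal.{u}} (hLS : K.HasLS l) {κ κ' : Cardinal.{u}}
    (hκ : Order.succ (2 ^ l) ≤ κ) (hκ' : Order.succ (2 ^ l) ≤ κ') (hcat : K.Categorical κ) :
    K.Categorical κ' := by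
  classical
  obtain ⟨hcat₁, hcat₂⟩ := hcat
  have hl : ℵ₀ ≤ l := hLS.1
  have hτ : #τ ≤ l := hLS.2.1
  have h2l : ℵ₀ ≤ (2 : Cardinal.{u}) ^ l := hl.trans (cantor l).le
  have h2τ : (2 : Cardinal.{u}) ^ #τ ≤ 2 ^ l := power_le_power_left two_ne_zero hτ
  have hls : Order.succ l ≤ (2 : Cardinal.{u}) ^ l := Order.succ_le_of_lt (cantor l)
  have hκlt : (2 : Cardinal.{u}) ^ l < κ := Order.succ_le_iff.1 hκ
  have hκlt' : (2 : Cardinal.{u}) ^ l < κ' := Order.succ_le_iff.1 hκ'
  -- models of the normal form have the expected size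
  have hsize : ∀ {Y : Type u} {d : Y → Set τ} {p : Set τ} {χ : Cardinal.{u}}, cnt d p = χ →
      2 ^ l < χ → (∀ q, q ≠ p → cnt d q ≤ 2 ^ l) → #Y = χ := by
    intro Y d p χ hp hχ hq
    refine le_antisymm ?_ (hp ▸ cnt_le_card d p)
    refine (card_le_add hq).trans ?_
    rw [hp]
    have h1 : (2 : Cardinal.{u}) ^ #τ * 2 ^ l ≤ 2 ^ l := by
      calc _ ≤ (2 : Cardinal.{u}) ^ l * 2 ^ l := mul_le_mul' h2τ le_rfl
        _ = 2 ^ l := mul_eq_self h2l
    exact add_le_of_le (h2l.trans hχ.le) le_rfl (h1.trans hχ.le)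
  -- a big model has a large colour
  have hlarge : ∀ {N : Type u} {c : N → Set τ}, 2 ^ l < #N → ∃ p, l < cnt c p := by
    intro N c hN
    by_contra hcon
    push Not at hcon
    have h1 := card_le_of_cnt_le (c := c) hcon
    have h2 : (2 : Cardinal.{u}) ^ #τ * l ≤ 2 ^ l := by
      calc _ ≤ (2 : Cardinal.{u}) ^ l * 2 ^ l := mul_le_mul' h2τ ((cantor l).le)
        _ = 2 ^ l := mul_eq_self h2l
    exact absurd (h1.trans h2) (not_le.2 hN)
  obtain ⟨Xs, cs, hXs, hXsκ⟩ := hcat₁
  -- transfer along normal forms into the fixed model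
  have hG : ∀ {N : Type u} {c : N → Set τ}, K.Mem N c → ∀ p, l < cnt c p →
      cnt cs p = κ ∧ ∀ q, q ≠ p → (l < cnt c q → cnt cs q = Order.succ l) ∧
        (¬ l < cnt c q → cnt cs q = cnt c q) := by
    intro N c hN p hp
    obtain ⟨Y, d, hY, hYp, hYq⟩ := normal_form K hLS hN hp κ (hls.trans hκlt.le)
    have hYc : #Y = κ := by
      refine hsize hYp hκlt fun q hq => ?_
      by_cases hq' : l < cnt c q
      · rw [(hYq q hq).1 hq']
        exact hls
      · rw [(hYq q hq).2 hq']
        exact (not_lt.1 hq').trans (cantor l).le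
    obtain ⟨e, he⟩ := hcat₂ Y Xs d cs hY hXs hYc hXsκ
    have hcnt := cnt_eq_of_iso e he
    refine ⟨by rw [← hcnt]; exact hYp, fun q hq => ⟨fun h => ?_, fun h => ?_⟩⟩
    · rw [← hcnt]
      exact (hYq q hq).1 h
    · rw [← hcnt]
      exact (hYq q hq).2 h
  obtain ⟨ps, hps⟩ := hlarge (c := cs) (by rw [hXsκ]; exact hκlt)
  have hls' : Order.succ l < κ := hls.trans_lt hκlt
  -- the large colour of the fixed model is unique
  have huniq : ∀ q, l < cnt cs q → q = ps := by
    intro q hq
    by_contra hne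
    have h1 := (hG hXs ps hps).2 q hne
    have h2 := (hG hXs q hq).1
    have h3 := h1.1 hq
    rw [h2] at h3
    exact absurd h3 hls'.ne'
  have hpsκ : cnt cs ps = κ := (hG hXs ps hps).1
  -- the shape of an arbitrary big model
  have hshape : ∀ {N : Type u} {c : N → Set τ}, K.Mem N c → 2 ^ l < #N →
      cnt c ps = #N ∧ ∀ q, q ≠ ps → cnt c q = cnt cs q := by
    intro N c hN hNc
    obtain ⟨p, hp⟩ := hlarge (c := c) hNc
    have hG₁ := hG hN p hp
    have hpp : p = ps := huniq p (by rw [hG₁.1]; exact (cantor l).trans hκlt)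
    subst hpp
    have hother : ∀ q, q ≠ p → ¬ l < cnt c q := by
      intro q hq hq'
      have h1 := hG hN q hq'
      have h2 : l < cnt cs q := by rw [h1.1]; exact (cantor l).trans hκlt
      exact hq (huniq q h2)
    refine ⟨?_, fun q hq => ((hG₁.2 q hq).2 (hother q hq)).symm⟩
    refine le_antisymm (cnt_le_card c p) ?_
    have h1 := card_le_add (c := c) (θ := l) (p := p) fun q hq => not_lt.1 (hother q hq)
    have h2 : (2 : Cardinal.{u}) ^ #τ * l ≤ 2 ^ l := by
      calc _ ≤ (2 : Cardinal.{u}) ^ l * 2 ^ l := mul_le_mul' h2τ ((cantor l).le)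
        _ = 2 ^ l := mul_eq_self h2l
    by_cases hc : cnt c p ≤ 2 ^ l
    · exact absurd (h1.trans (add_le_of_le h2l hc h2)) (not_le.2 hNc)
    · push Not at hc
      exact h1.trans (add_le_of_le (h2l.trans hc.le) le_rfl (h2.trans hc.le))
  refine ⟨?_, ?_⟩
  · -- existence in κ'
    obtain ⟨Y, d, hY, hYp, hYq⟩ := normal_form K hLS hXs hps κ'
      (hls.trans hκlt'.le)
    refine ⟨Y, d, hY, hsize hYp hκlt' fun q hq => ?_⟩
    have hq' : ¬ l < cnt cs q := fun h => hq (huniq q h)
    rw [(hYq q hq).2 hq']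
    exact (not_lt.1 hq').trans (cantor l).le
  · -- uniqueness in κ'
    intro M N c d hM hN hMc hNc
    refine iso_of_cnt fun q => ?_
    have h1 := hshape hM (by rw [hMc]; exact hκlt')
    have h2 := hshape hN (by rw [hNc]; exact hκlt')
    by_cases hq : q = ps
    · subst hq
      rw [h1.1, h2.1, hMc, hNc]
    · rw [h1.2 q hq, h2.2 q hq]

end Vale.Agent.Lib.P307
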