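import Vale.Agent.Lib.P307.Defs

namespace Vale.Agent.Lib.P307

open Cardinal Set

universe u

variable {τ : Type u} {X : Type u}

/-- A subset is big if on every colour it is either everything or of size above `l`. -/
def Big (l : Cardinal.{u}) (c : X → Set τ) (N : Set X) : Prop :=
  ∀ q : Set τ, (∀ a, c a = q → a ∈ N) ∨ l < #↥{a | a ∈ N ∧ c a = q}

/-- The colour-preserving injection used to move a small set into a big set. -/
theorem exists_moving_map {l : Cardinal.{u}} (hl : ℵ₀ ≤ l) {c : X → Set τ} {N₂ N : Set X}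
    (hB : Big l c N₂) (hN : #N ≤ l) :
    ∃ φ : X → X, (∀ a ∈ N \ N₂, φ a ∈ N₂ ∧ φ a ∉ N ∧ c (φ a) = c a) ∧ Set.InjOn φ (N \ N₂) := by
  classical
  have key : ∀ q : Set τ, ∃ f : ↥{a | a ∈ N \ N₂ ∧ c a = q} → X,
      (∀ a, f a ∈ N₂ ∧ f a ∉ N ∧ c (f a) = q) ∧ Function.Injective f := by
    intro q
    by_cases hne : Nonempty ↥{a | a ∈ N \ N₂ ∧ c a = q}
    · obtain ⟨⟨a₀, ha₀, hq⟩⟩ := hne
      have h1 : l < #↥{a | a ∈ N₂ ∧ c a = q} := by
        rcases hB q with h | h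
        · exact absurd (h a₀ hq) ha₀.2
        · exact h
      have h2 : l < #↥{a | (a ∈ N₂ ∧ a ∉ N) ∧ c a = q} := by
        by_contra hcon
        push Not at hcon
        have hsub : {a | a ∈ N₂ ∧ c a = q} ⊆ {a | (a ∈ N₂ ∧ a ∉ N) ∧ c a = q} ∪ N := by
          rintro a ⟨ha, hc⟩
          by_cases haN : a ∈ N
          · exact Or.inr haN
          · exact Or.inl ⟨⟨ha, haN⟩, hc⟩
        have h3 := (mk_le_mk_of_subset hsub).trans (mk_union_le _ _)
        exact absurd (h3.trans (add_le_of_le hl hcon hN)) (not_le.2 h1)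
      have h4 : #↥{a | a ∈ N \ N₂ ∧ c a = q} ≤ #↥{a | (a ∈ N₂ ∧ a ∉ N) ∧ c a = q} := by
        have : #↥{a | a ∈ N \ N₂ ∧ c a = q} ≤ #N :=
          mk_le_mk_of_subset fun a ha => ha.1.1
        exact (this.trans hN).trans h2.le
      obtain ⟨f⟩ := Cardinal.le_def _ _ |>.1 h4
      refine ⟨fun a => (f a).1, fun a => ?_, fun a b hab => f.injective (Subtype.ext hab)⟩
      have := (f a).2
      exact ⟨this.1.1, this.1.2, this.2⟩
    · have : IsEmpty ↥{a | a ∈ N \ N₂ ∧ c a = q} := not_nonempty_iff.1 hne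
      exact ⟨fun a => this.elim a, fun a => this.elim a, fun a => this.elim a⟩
  choose f hf hfi using key
  refine ⟨fun a => if h : a ∈ N \ N₂ then f (c a) ⟨a, h, rfl⟩ else a, ?_, ?_⟩
  · intro a ha
    simp only [dif_pos ha]
    exact hf (c a) ⟨a, ha, rfl⟩
  · intro a ha b hb hab
    simp only [dif_pos ha, dif_pos hb] at hab
    have h1 : c a = c b := by
      have h2 := (hf (c a) ⟨a, ha, rfl⟩).2.2
      have h3 := (hf (c b) ⟨b, hb, rfl⟩).2.2
      rw [hab] at h2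
      exact h2.symm.trans h3
    -- transport along the colour
    have h5 : ∀ (q : Set τ) (hq : c a = q) (hq' : c b = q),
        f q ⟨a, ha, hq⟩ = f q ⟨b, hb, hq'⟩ → a = b := by
      intro q hq hq' h
      have := hfi q h
      exact congrArg Subtype.val this
    refine h5 (c b) h1 rfl ?_
    have h6 : ∀ (q : Set τ) (hq : c a = q), f (c a) ⟨a, ha, rfl⟩ = f q ⟨a, ha, hq⟩ := by
      intro q hq
      subst hq
      rfl
    rw [← h6 (c b) h1]
    exact hab

/-- Given a small strong submodel, a big set contains a copy fixing the part already inside. -/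
theorem exists_small (K : UAEC τ) {l : Cardinal.{u}} (hLS : K.HasLS l) {c : X → Set τ} {N₂ : Set X}
    (hX : K.Mem X c) (hB : Big l c N₂) {B : Set X} (hBN : B ⊆ N₂) (hBl : #B ≤ l) :
    ∃ N', B ⊆ N' ∧ N' ⊆ N₂ ∧ K.Le X c N' ∧ #N' ≤ l := by
  classical
  obtain ⟨hl, _, hLS'⟩ := hLS
  obtain ⟨N, hBN', hLe, hcard⟩ := hLS' hX B
  have hN : #N ≤ l := hcard.trans (add_le_of_le hl hBl le_rfl)
  obtain ⟨φ, hφ, hinj⟩ := exists_moving_map hl hB hN
  let Q : Set X := N \ N₂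
  let ψ : X → X := fun a => if h : ∃ b, b ∈ Q ∧ φ b = a then h.choose else a
  have hψ : ∀ a ∈ Q, ψ (φ a) = a := by
    intro a ha
    have h : ∃ b, b ∈ Q ∧ φ b = φ a := ⟨a, ha, rfl⟩
    show (if h : ∃ b, b ∈ Q ∧ φ b = φ a then h.choose else φ a) = a
    rw [dif_pos h]
    exact hinj h.choose_spec.1 ha h.choose_spec.2
  let g : X → X := fun a => if a ∈ Q then φ a else if a ∈ φ '' Q then ψ a else a
  have hφQ : ∀ a ∈ Q, φ a ∉ Q := fun a ha h => h.2 (hφ a ha).1
  have hg₁ : ∀ a ∈ Q, g a = φ a := fun a ha => if_pos ha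
  have hg₂ : ∀ a ∈ Q, g (φ a) = a := by
    intro a ha
    show (if φ a ∈ Q then φ (φ a) else if φ a ∈ φ '' Q then ψ (φ a) else φ a) = a
    rw [if_neg (hφQ a ha), if_pos (mem_image_of_mem φ ha), hψ a ha]
  have hg₃ : ∀ a, a ∉ Q → a ∉ φ '' Q → g a = a := by
    intro a h1 h2
    show (if a ∈ Q then φ a else if a ∈ φ '' Q then ψ a else a) = a
    rw [if_neg h1, if_neg h2]
  have hinv : Function.Involutive g := by
    intro a
    by_cases h1 : a ∈ Q
    · rw [hg₁ a h1, hg₂ a h1]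
    · by_cases h2 : a ∈ φ '' Q
      · obtain ⟨b, hb, rfl⟩ := h2
        rw [hg₂ b hb, hg₁ b hb]
      · rw [hg₃ a h1 h2, hg₃ a h1 h2]
  have hcol : ∀ a, c (g a) = c a := by
    intro a
    by_cases h1 : a ∈ Q
    · rw [hg₁ a h1]
      exact (hφ a h1).2.2
    · by_cases h2 : a ∈ φ '' Q
      · obtain ⟨b, hb, rfl⟩ := h2
        rw [hg₂ b hb]
        exact (hφ b hb).2.2.symm
      · rw [hg₃ a h1 h2]
  let e : X ≃ X := hinv.toPerm
  have hdisj : ∀ a ∈ N, a ∉ φ '' Q := by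
    rintro a ha ⟨b, hb, rfl⟩
    exact (hφ b hb).2.1 ha
  refine ⟨e '' N, ?_, ?_, K.le_iso e hcol N hLe, ?_⟩
  · intro b hb
    refine ⟨b, hBN' hb, ?_⟩
    show g b = b
    exact hg₃ b (fun h => h.2 (hBN hb)) (hdisj b (hBN' hb))
  · rintro _ ⟨a, ha, rfl⟩
    show g a ∈ N₂
    by_cases h1 : a ∈ Q
    · rw [hg₁ a h1]
      exact (hφ a h1).1
    · rw [hg₃ a h1 (hdisj a ha)]
      by_contra h
      exact h1 ⟨ha, h⟩
  · exact mk_image_le.trans hN

end Vale.Agent.Lib.P307
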